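import Vale.Agent.P002Punct.Final
import Vale.Agent.P002Punct.Seed
import Vale.Agent.P002Punct.One.Main
import Vale.Agent.P002Punct.One.Seed

/-!
Potential density of integral points for punctured surfaces and quasi-unipotent boundary classes:
genus at least two with any classes, genus one with a regular and a further nonscalar class.
-/

namespace Vale.Agent.Results.P002.PuncturedSurfacesDense

open Matrix

theorem result (g s r : ℕ) (C : Fin s → Matrix.SpecialLinearGroup (Fin r) ℂ)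
    (hg : 2 ≤ g ∨ g = 1 ∧ ∃ j k, j ≠ k ∧ minpoly ℂ (C j).1 = (C j).1.charpoly ∧
      ∀ c : ℂ, (C k).1 ≠ c • (1 : Matrix (Fin r) (Fin r) ℂ))
    (hC : ∀ j, ∀ z : ℂ, (C j).1.charpoly.IsRoot z → ∃ m : ℕ, 0 < m ∧ z ^ m = 1) :
    ∃ L : IntermediateField ℚ ℂ, FiniteDimensional ℚ L ∧
      ∀ p : MvPolynomial (((Fin g × Bool) ⊕ Fin s) × Fin r × Fin r) ℂ,
        (∀ ρ : (Fin g × Bool) ⊕ Fin s → Matrix.SpecialLinearGroup (Fin r) ℂ,
          (List.ofFn fun i => ρ (.inl (i, false)) * ρ (.inl (i, true)) * (ρ (.inl (i, false)))⁻¹ *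
            (ρ (.inl (i, true)))⁻¹).prod * (List.ofFn fun j => ρ (.inr j)).prod = 1 →
          (∀ j, IsConj (C j) (ρ (.inr j))) →
          (∀ v a b, (ρ v).1 a b ∈ L ∧ IsIntegral ℤ ((ρ v).1 a b)) →
          (∀ W : Submodule ℂ (Fin r → ℂ), (∀ v, ∀ w ∈ W, (ρ v).1 *ᵥ w ∈ W) → W = ⊥ ∨ W = ⊤) →
          MvPolynomial.eval (fun t => (ρ t.1).1 t.2.1 t.2.2) p = 0) →
        ∀ ρ : (Fin g × Bool) ⊕ Fin s → Matrix.SpecialLinearGroup (Fin r) ℂ,
          (List.ofFn fun i => ρ (.inl (i, false)) * ρ (.inl (i, true)) * (ρ (.inl (i, false)))⁻¹ *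
            (ρ (.inl (i, true)))⁻¹).prod * (List.ofFn fun j => ρ (.inr j)).prod = 1 →
          (∀ j, IsConj (C j) (ρ (.inr j))) →
          MvPolynomial.eval (fun t => (ρ t.1).1 t.2.1 t.2.2) p = 0 := by
  rcases Nat.lt_or_ge r 2 with hr | hr
  · exact P002Punct.density_small (by omega) C
  · rcases hg with hg | ⟨rfl, j, k, hjk, hj, hk⟩
    · obtain ⟨ω, hω, hseed⟩ := P002Punct.exists_seed hr
      exact P002Punct.density_of_seed hg hr C hC hω (hseed (s := s))
    · exact P002Punct.dense_one hr (P002Punct.seedOne hr) C hC hjk hj hk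

end Vale.Agent.Results.P002.PuncturedSurfacesDense
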