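import Vale.Agent.P002Surf.Main

/-!
Integral points are Zariski dense on the SL_r representation variety of a closed surface group.
-/

namespace Vale.Agent.Results.P002.SurfaceGroupsDense

open Matrix

/-- The matrix of a product of commutators in the special linear group. -/
theorem coe_prod_commutator {R : Type} [CommRing R] {g r : ℕ}
    (a : Fin g → Bool → Matrix.SpecialLinearGroup (Fin r) R) :
    ((List.ofFn fun i => a i false * a i true * (a i false)⁻¹ * (a i true)⁻¹).prod : Matrix.SpecialLinearGroup (Fin r) R).1 =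
      (List.ofFn fun i => P002Surf.cm ((a i false).1, (a i true).1)).prod := by
  induction g with
  | zero => simp
  | succ g ih =>
    rw [List.ofFn_succ, List.ofFn_succ, List.prod_cons, List.prod_cons,
      ← ih (fun i => a i.succ)]
    simp [P002Surf.cm, Matrix.SpecialLinearGroup.coe_inv]

theorem result (g r : ℕ) (hg : 2 ≤ g) (p : MvPolynomial (Fin g × Bool × Fin r × Fin r) ℂ)
    (hp : ∀ a : Fin g → Bool → Matrix.SpecialLinearGroup (Fin r) ℤ,
      (List.ofFn fun i => a i false * a i true * (a i false)⁻¹ * (a i true)⁻¹).prod = 1 →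
        MvPolynomial.eval (fun v => (((a v.1 v.2.1).1 v.2.2.1 v.2.2.2 : ℤ) : ℂ)) p = 0)
    (ρ : Fin g → Bool → Matrix.SpecialLinearGroup (Fin r) ℂ)
    (hρ : (List.ofFn fun i => ρ i false * ρ i true * (ρ i false)⁻¹ * (ρ i true)⁻¹).prod = 1) :
    MvPolynomial.eval (fun v => (ρ v.1 v.2.1).1 v.2.2.1 v.2.2.2) p = 0 := by
  have key := P002Surf.zd_all hg (fun i => ((ρ i false).1, (ρ i true).1))
    ⟨fun i => ⟨(ρ i false).2, (ρ i true).2⟩, by
      rw [← coe_prod_commutator ρ, hρ]; rfl⟩
  have h := key p (fun a ha => by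
    obtain ⟨hdet, hprod⟩ := ha
    let b : Fin g → Bool → Matrix.SpecialLinearGroup (Fin r) ℤ := fun i c =>
      cond c ⟨(a i).2, (hdet i).2⟩ ⟨(a i).1, (hdet i).1⟩
    have hb : (List.ofFn fun i => b i false * b i true * (b i false)⁻¹ * (b i true)⁻¹).prod = 1 :=
      Subtype.ext (by rw [coe_prod_commutator b]; exact hprod)
    have h := hp b hb
    convert h using 3
    funext v
    obtain ⟨i, c, s, t⟩ := v
    cases c <;> rfl)
  convert h using 3
  funext v
  obtain ⟨i, c, s, t⟩ := v
  cases c <;> simp [P002Surf.ev]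

end Vale.Agent.Results.P002.SurfaceGroupsDense
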