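import Vale.Agent.P002.Solv.Density

/-!
# P002: integral points are potentially dense in the virtually solvable locus
-/

namespace Vale.Agent.Results.P002.VirtSolvableLocus

open Matrix

theorem result : ∀ (Γ : Type) [Group Γ] [Group.FG Γ] (r s : ℕ)
    (γ : Fin s → Γ) (c : Fin s → Matrix.SpecialLinearGroup (Fin r) ℂ),
    (∀ i, ∃ M : ℕ, 0 < M ∧ IsNilpotent ((c i : Matrix (Fin r) (Fin r) ℂ) ^ M - 1)) →
    ∃ L : IntermediateField ℚ ℂ, FiniteDimensional ℚ L ∧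
      ∀ p : MvPolynomial (Γ × Fin r × Fin r) ℂ,
        (∀ (ρ ρ' : Γ →* Matrix.SpecialLinearGroup (Fin r) ℂ)
            (g : Matrix.SpecialLinearGroup (Fin r) ℂ),
          (∀ a, ρ' a = g * ρ a * g⁻¹) →
          MvPolynomial.eval (fun t => (ρ' t.1 : Matrix (Fin r) (Fin r) ℂ) t.2.1 t.2.2) p =
            MvPolynomial.eval (fun t => (ρ t.1 : Matrix (Fin r) (Fin r) ℂ) t.2.1 t.2.2) p) →
        (∀ ρ : Γ →* Matrix.SpecialLinearGroup (Fin r) ℂ,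
          (∀ W : Submodule ℂ (Fin r → ℂ),
            (∀ g, ∀ v ∈ W, (ρ g : Matrix (Fin r) (Fin r) ℂ) *ᵥ v ∈ W) →
            ∃ W' : Submodule ℂ (Fin r → ℂ),
              (∀ g, ∀ v ∈ W', (ρ g : Matrix (Fin r) (Fin r) ℂ) *ᵥ v ∈ W') ∧ IsCompl W W') →
          (∃ H : Subgroup Γ, H.FiniteIndex ∧ Group.IsSolvable (H.map ρ)) →
          (∀ i, IsConj (c i) (ρ (γ i))) →
          (∀ a i j, (ρ a : Matrix (Fin r) (Fin r) ℂ) i j ∈ L ∧
            IsIntegral ℤ ((ρ a : Matrix (Fin r) (Fin r) ℂ) i j)) →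
          MvPolynomial.eval (fun t => (ρ t.1 : Matrix (Fin r) (Fin r) ℂ) t.2.1 t.2.2) p = 0) →
        ∀ ρ : Γ →* Matrix.SpecialLinearGroup (Fin r) ℂ,
          (∀ W : Submodule ℂ (Fin r → ℂ),
            (∀ g, ∀ v ∈ W, (ρ g : Matrix (Fin r) (Fin r) ℂ) *ᵥ v ∈ W) →
            ∃ W' : Submodule ℂ (Fin r → ℂ),
              (∀ g, ∀ v ∈ W', (ρ g : Matrix (Fin r) (Fin r) ℂ) *ᵥ v ∈ W') ∧ IsCompl W W') →
          (∃ H : Subgroup Γ, H.FiniteIndex ∧ Group.IsSolvable (H.map ρ)) →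
          (∀ i, IsConj (c i) (ρ (γ i))) →
          MvPolynomial.eval (fun t => (ρ t.1 : Matrix (Fin r) (Fin r) ℂ) t.2.1 t.2.2) p = 0 :=
  fun _ _ _ _ _ γ c hc => Vale.Agent.P002.Solv.density γ c hc

end Vale.Agent.Results.P002.VirtSolvableLocus
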